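import Crest.Agent.Lib.SCE.Abstract3

/-!
# S0175, module A: `Setup.target`.
See `Abstract1`, `Abstract2`, `Abstract3`.
-/
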